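import Vale.Agent.P354CB.Defs2

/-!
LD2: a small lens over the slice t = 0 is a development of a part of the data.
-/

open scoped ContDiff
open Set Filter Topology Metric

namespace Vale.Agent.P354CB56

open Vale.Agent.P354n
open Vale.Agent.P354I (X Dat pd)
open Vale.Agent.P354XE (Tw Lor pt xs)
open Vale.Agent.P354XJ (one one_sp one_vac one_curve one_co one_tgt one_on tm_bound xs_cont xs_pt
  dist_le_of_dom conv_of_dist vel)
open Vale.Agent.P354YC (IndAt)
open Vale.Agent.P354CB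

/-- The function whose sublevels are the lenses. -/
noncomputable def ln (C : ℝ) (q : ℝ × ℝ × ℝ) (p : R4) : ℝ := C * |p.1| + ‖p.2 - q‖

theorem ln_cont (C : ℝ) (q : ℝ × ℝ × ℝ) : Continuous (ln C q) := by
  unfold ln
  fun_prop

theorem ln_le {C : ℝ} {q : ℝ × ℝ × ℝ} {a b : R4} (h : ‖a - b‖ ≤ C * |b.1| - C * |a.1|) :
    ln C q a ≤ ln C q b := by
  have k1 : ‖a.2 - b.2‖ ≤ ‖a - b‖ := norm_snd_le (a - b)
  have k2 := norm_sub_le_norm_sub_add_norm_sub a.2 b.2 q
  unfold ln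
  linarith

/-- Curves in the cone which have no end points in the lens cross t = 0 exactly once. -/
theorem core {z w : ℝ → R4} {C ε : ℝ} {q : ℝ × ℝ × ℝ} (hC : 0 < C)
    (h : ∀ u ∈ Ioo (0 : ℝ) 1, HasDerivAt z (w u) u ∧ ‖w u‖ ≤ C * (w u).1 ∧ 0 < (w u).1 ∧
      ln C q (z u) < ε)
    (n : ∀ x, ln C q x < ε → ¬ Tendsto z (𝓝[<] 1) (𝓝 x) ∧ ¬ Tendsto z (𝓝[>] 0) (𝓝 x)) :
    ∃! t, t ∈ Ioo (0 : ℝ) 1 ∧ (z t).1 = 0 := by
  have d1 : ∀ u ∈ Ioo (0 : ℝ) 1, HasDerivAt (fun u => (z u).1) (w u).1 u := fun u hu =>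
    (ContinuousLinearMap.fst ℝ ℝ (ℝ × ℝ × ℝ)).hasFDerivAt.comp_hasDerivAt u (h u hu).1
  have ct : ContinuousOn (fun u => (z u).1) (Ioo 0 1) := fun u hu =>
    (d1 u hu).continuousAt.continuousWithinAt
  have sm : StrictMonoOn (fun u => (z u).1) (Ioo 0 1) :=
    strictMonoOn_of_deriv_pos (convex_Ioo 0 1) ct fun u hu => by
      rw [interior_Ioo] at hu
      rw [(d1 u hu).deriv]
      exact (h u hu).2.2.1
  have d := fun u hu v hv k => dist_le_of_dom (W := z) (W' := w) (f := fun u => C * (z u).1)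
    (f' := fun u => C * (w u).1) (s := 0) (t := 1)
    (fun u hu => ⟨(h u hu).1, (d1 u hu).const_mul C, (h u hu).2.1⟩) (u := u) (v := v) hu hv k
  have mo : MonotoneOn (fun u => C * (z u).1) (Ioo 0 1) := fun u hu v hv k =>
    sub_nonneg.1 ((norm_nonneg _).trans (d u hu v hv k))
  have m : (1 / 2 : ℝ) ∈ Ioo (0 : ℝ) 1 := ⟨by norm_num, by norm_num⟩
  have ex : ∃ t ∈ Ioo (0 : ℝ) 1, (z t).1 = 0 := by
    by_contra! k
    rcases lt_or_gt_of_ne (k _ m) with l | l
    · have ng : ∀ u ∈ Ioo (0 : ℝ) 1, (z u).1 < 0 := fun u hu => by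
        by_contra! a
        obtain ⟨t, t1, t2⟩ := isPreconnected_Ioo.intermediate_value m hu ct ⟨l.le, a⟩
        exact k t t1 t2
      obtain ⟨x, hx⟩ := conv_of_dist d (Ioo_mem_nhdsLT zero_lt_one)
        (mo.tendsto_nhdsWithin_Ioo_left (nonempty_Ioo.2 zero_lt_one) ⟨0, by
          rintro _ ⟨u, hu, rfl⟩
          exact (mul_neg_of_pos_of_neg hC (ng u hu)).le⟩)
      refine (n x (lt_of_le_of_lt (le_of_tendsto (((ln_cont C q).tendsto x).comp hx) ?_)
        (h _ m).2.2.2)).1 hx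
      filter_upwards [Ioo_mem_nhdsLT m.2] with u hu
      have hu' : u ∈ Ioo (0 : ℝ) 1 := ⟨m.1.trans hu.1, hu.2⟩
      refine ln_le ((d _ m u hu' hu.1.le).trans (le_of_eq ?_))
      rw [abs_of_neg l, abs_of_neg (ng u hu')]
      ring
    · have ps : ∀ u ∈ Ioo (0 : ℝ) 1, 0 < (z u).1 := fun u hu => by
        by_contra! a
        obtain ⟨t, t1, t2⟩ := isPreconnected_Ioo.intermediate_value hu m ct ⟨a, l.le⟩
        exact k t t1 t2
      obtain ⟨x, hx⟩ := conv_of_dist d (Ioo_mem_nhdsGT zero_lt_one)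
        (mo.tendsto_nhdsWithin_Ioo_right (nonempty_Ioo.2 zero_lt_one) ⟨0, by
          rintro _ ⟨u, hu, rfl⟩
          exact (mul_pos hC (ps u hu)).le⟩)
      refine (n x (lt_of_le_of_lt (le_of_tendsto (((ln_cont C q).tendsto x).comp hx) ?_)
        (h _ m).2.2.2)).2 hx
      filter_upwards [Ioo_mem_nhdsGT m.1] with u hu
      have hu' : u ∈ Ioo (0 : ℝ) 1 := ⟨hu.1, hu.2.trans m.2⟩
      refine ln_le ?_
      rw [norm_sub_rev, abs_of_pos l, abs_of_pos (ps u hu')]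
      exact d u hu' _ m hu.2.le
  obtain ⟨t, t1, t2⟩ := ex
  exact ⟨t, ⟨t1, t2⟩, fun u hu => sm.injOn hu.1 t1 (hu.2.trans t2.symm)⟩

theorem pt_smooth : ContDiff ℝ ∞ (pt 0) := by
  unfold pt
  fun_prop

theorem pt_fd (y u : X) : fderiv ℝ (pt 0) y u = pt 0 u := by
  let L : X →L[ℝ] R4 := (0 : X →L[ℝ] ℝ).prod ((EuclideanSpace.proj 0).prod
    ((EuclideanSpace.proj 1).prod (EuclideanSpace.proj 2)))
  have e : pt 0 = L := funext fun _ => rfl
  rw [e, L.fderiv]

theorem ind_congr {g : Tw} {Xf : R4 → R4} {J J' : X → R4} {d : Dat} {y : X}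
    (h : IndAt g Xf J d y) (e : J' =ᶠ[𝓝 y] J) : IndAt g Xf J' d y := by
  have e1 : ∀ k, pd k J' =ᶠ[𝓝 y] pd k J := fun k =>
    e.fderiv.mono fun _ a => congrArg (fun L : X →L[ℝ] R4 => L (P354I.ee k)) a
  have e2 : ∀ i k, pd i (pd k J') y = pd i (pd k J) y := fun i k =>
    congrArg (fun L : X →L[ℝ] R4 => L (P354I.ee i)) (e1 k).fderiv_eq
  unfold IndAt
  simp only [e.eq_of_nhds, fun k => (e1 k).eq_of_nhds, e2]
  exact h

theorem lor_mono {g : Tw} {D D' : Set R4} {Xf : R4 → R4} (h : Lor g D Xf) (ho : IsOpen D')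
    (k : D' ⊆ D) : Lor g D' Xf :=
  ⟨ho, ⟨fun y hy => h.met.lin y (k hy), fun y hy => h.met.symm y (k hy),
    fun y hy => h.met.nondeg y (k hy), fun a b => (h.met.smooth a b).mono k⟩,
    h.vac.imp fun _ e y hy => e y (k hy), fun p hp => h.sig p (k hp), fun p hp => h.tl p (k hp),
    h.cont.mono k⟩

theorem ld2 : LD2 := by
  classical
  intro d hd y y0 g D Xf h hp hX hI
  obtain ⟨n, -, -, S⟩ := hI.self_of_nhds.sp h hp (hd.2 y y0).1
  have f1 : ∀ x w : R4, fderiv ℝ (fun p : R4 => p.1) x w = w.1 := fun x w => by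
    rw [fderiv_fst]
    rfl
  obtain ⟨C, C0, hC⟩ := tm_bound (f := fun p => p.1) h hp ⟨contDiffAt_fst, by rwa [f1],
    fun v v0 a => by
      rw [f1] at a
      have e : pt 0 (xs v) = v := Prod.ext a.symm rfl
      have := S.pos (xs v) fun b => v0 (by
        rw [← e, b]
        simp [pt])
      rwa [pt_fd, e] at this⟩
  have tx : Tendsto xs (𝓝 (pt 0 y)) (𝓝 y) := by
    simpa only [xs_pt] using xs_cont.tendsto (pt 0 y)
  obtain ⟨r, r0, hr⟩ := Metric.eventually_nhds_iff_ball.1 ((hC.and (h.isOpen.mem_nhds hp)).and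
    (tx.eventually (hI.and (eventually_ne_nhds y0))))
  let D' : Set R4 := {p | ln (C + 1) (pt 0 y).2 p < r}
  have o : IsOpen D' := isOpen_lt (ln_cont _ _) continuous_const
  have sb : D' ⊆ ball (pt 0 y) r := fun p hp => by
    have a : (C + 1) * |p.1| + ‖p.2 - (pt 0 y).2‖ < r := hp
    have b := mul_nonneg C0.le (abs_nonneg p.1)
    rw [mem_ball, Prod.dist_eq, max_lt_iff, Real.dist_eq, dist_eq_norm,
      show (pt 0 y).1 = 0 from rfl, sub_zero]
    constructor <;> nlinarith [norm_nonneg (p.2 - (pt 0 y).2), abs_nonneg p.1]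
  have h' : Lor g D' Xf := lor_mono h o fun p hp => (hr p (sb hp)).1.2
  have m0 : pt 0 y ∈ D' := by
    show (C + 1) * |(0 : ℝ)| + ‖(pt 0 y).2 - (pt 0 y).2‖ < r
    simpa using r0
  let j : X → D' := fun z => if k : pt 0 z ∈ D' then ⟨_, k⟩ else ⟨_, m0⟩
  have jv : ∀ z, pt 0 z ∈ D' → (j z).1 = pt 0 z := fun z k => by simp only [j, dif_pos k]
  have oO : IsOpen (pt 0 ⁻¹' D') := o.preimage pt_smooth.continuous
  refine ⟨⟨pt 0 ⁻¹' D', one D' h'.isOpen g Xf, j, ⟨⟨⟨one_sp h', one_vac h'⟩,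
    inferInstanceAs (SecondCountableTopology D'), fun c hc nl => ?_⟩, oO, ⟨y, m0⟩,
    fun z k => ?_, ?_, fun z k e _ => ?_⟩⟩, m0⟩
  · choose! w w1 w2 w3 using fun u (hu : u ∈ Ioo (0 : ℝ) 1) =>
      vel (e := (⟨_, m0⟩ : D')) hc (Ioo_mem_nhds hu.1 hu.2) (one_on _)
    have k := core (z := fun u => (c u : D').1) (w := w) (C := C + 1) (ε := r) (q := (pt 0 y).2)
      (by linarith) (fun u hu => by
        have a := (hr _ (sb (c u : D').2)).1.1 (w u) (w2 u hu).le (w3 u hu).le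
        rw [f1] at a
        have w0 : w u ≠ 0 := fun b => by
          have b1 := w2 u hu
          rw [b] at b1
          exact b1.ne (h'.met.lin _ (c u : D').2 0).map_zero
        have p1 : 0 < (w u).1 := pos_of_mul_pos_left ((norm_pos_iff.2 w0).trans_le
          (a.trans_eq (mul_comm _ _))) C0.le
        exact ⟨w1 u hu, by linarith, p1, (c u : D').2⟩)
      fun x hx => ⟨fun a => (nl ⟨x, hx⟩).1 (tendsto_subtype_rng.2 a),
        fun a => (nl ⟨x, hx⟩).2 (tendsto_subtype_rng.2 a)⟩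
    refine (existsUnique_congr fun t => and_congr_right fun _ => ⟨fun a => ?_, ?_⟩).1 k
    · have e : pt 0 (xs (c t : D').1) = (c t : D').1 := Prod.ext a.symm rfl
      have b : pt 0 (xs (c t : D').1) ∈ D' := e.symm ▸ (c t : D').2
      exact ⟨_, b, Subtype.ext ((jv _ b).trans e)⟩
    · rintro ⟨z, b, e⟩
      rw [← e, jv z b]
      rfl
  · have a := (hr _ (sb k)).2.2
    rwa [xs_pt] at a
  · refine IsEmbedding.subtypeVal.of_comp_iff.1 ?_
    have e : (Subtype.val ∘ fun z : (pt 0 ⁻¹' D' : Set X) => j z) = pt 0 ∘ Subtype.val :=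
      funext fun z => jv _ z.2
    rw [e]
    exact (Function.LeftInverse.isEmbedding (xs_pt 0) xs_cont pt_smooth.continuous).comp
      IsEmbedding.subtypeVal
  · have e' : (fun z => co e (j z)) =ᶠ[𝓝 z] pt 0 := by
      filter_upwards [oO.mem_nhds k] with x hx
      exact jv x hx
    have a := (hr _ (sb k)).2.1
    rw [xs_pt] at a
    exact ⟨pt_smooth.contDiffAt.congr_of_eventuallyEq e', ind_congr a e'⟩

end Vale.Agent.P354CB56
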